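import Vale.Agent.P127.LipschitzChoice

/-!
# P127: Kakeya sets with a Lipschitz choice of segments on a set of positive measure

Such sets have positive Lebesgue measure, hence full Hausdorff dimension, in every dimension.
-/

open MeasureTheory Module Set Metric
open scoped NNReal ENNReal

namespace Vale.Agent.Results.P127.LipschitzChoice

/-- If `K ⊆ ℝⁿ` contains the unit segments from `a e` in the directions `e` of a set `D` of
positive surface measure and `a` is Lipschitz on `D`, then `K` has positive measure and Hausdorff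
dimension `n`. -/
theorem result :
    ∀ (n : ℕ), 1 ≤ n → ∀ (K D : Set (EuclideanSpace ℝ (Fin n)))
      (a : EuclideanSpace ℝ (Fin n) → EuclideanSpace ℝ (Fin n)) (C : ℝ≥0),
      D ⊆ sphere 0 1 → MeasurableSet D →
      (volume : Measure (EuclideanSpace ℝ (Fin n))).toSphere (Subtype.val ⁻¹' D) ≠ 0 →
      LipschitzOnWith C a D →
      (∀ e ∈ D, ∀ t ∈ Icc (0 : ℝ) 1, a e + t • e ∈ K) →
      0 < volume K ∧ dimH K = n := by
  intro n hn K D a C _ hDm hD ha hseg
  have : Nonempty (Fin n) := ⟨⟨0, hn⟩⟩
  have hK : volume K ≠ 0 :=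
    Vale.Agent.P127.measure_ne_zero_of_lipschitz_choice volume hDm hD ha hseg
  refine ⟨pos_iff_ne_zero.2 hK, le_antisymm ?_ ?_⟩
  · exact (dimH_mono (subset_univ K)).trans (by simp [Real.dimH_univ_eq_finrank])
  · have h : μH[((n : ℝ≥0) : ℝ)] K ≠ 0 := by
      intro h0
      have e : ((n : ℝ≥0) : ℝ) = (finrank ℝ (EuclideanSpace ℝ (Fin n)) : ℝ) := by simp
      rw [e] at h0
      exact hK (Measure.absolutelyContinuous_isAddHaarMeasure volume
        (μH[(finrank ℝ (EuclideanSpace ℝ (Fin n)) : ℝ)]) h0)
    exact le_dimH_of_hausdorffMeasure_ne_zero h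

end Vale.Agent.Results.P127.LipschitzChoice
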